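import Mathlib

/-!
# The fourth-difference identity behind kink convexity (P227)

For four functionals `u a, u b, u c, u d` on `ℝ³` write `dep` for their linear dependence.
The ordered fourth-derivative coefficients telescope to
`dep(z) ^ 2 * dep(w) ^ 2 / (product of the four coefficients)`.
-/

open Finset

namespace Vale.Agent.P227.Kink

variable {ι : Type*}

/-- The scalar product on `Fin 3 → ℝ`, written out. -/
def dot (x y : Fin 3 → ℝ) : ℝ := x 0 * y 0 + x 1 * y 1 + x 2 * y 2

/-- The determinant of three vectors of `ℝ³`. -/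
def det3 (x y z : Fin 3 → ℝ) : ℝ :=
  x 0 * (y 1 * z 2 - y 2 * z 1) - x 1 * (y 0 * z 2 - y 2 * z 0) + x 2 * (y 0 * z 1 - y 1 * z 0)

/-- The linear dependence of four functionals, applied to `v`. -/
def dep (u : ι → Fin 3 → ℝ) (v : ι → ℝ) (a b c d : ι) : ℝ :=
  v a * det3 (u b) (u c) (u d) - v b * det3 (u a) (u c) (u d)
    + v c * det3 (u a) (u b) (u d) - v d * det3 (u a) (u b) (u c)

/-- The product of the four coefficients of the dependence. -/
def depProd (u : ι → Fin 3 → ℝ) (a b c d : ι) : ℝ :=
  det3 (u b) (u c) (u d) * det3 (u a) (u c) (u d) * det3 (u a) (u b) (u d)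
    * det3 (u a) (u b) (u c)

/-- `v` minus the linear functional `x`, at `b`. -/
def res (u : ι → Fin 3 → ℝ) (v : ι → ℝ) (x : Fin 3 → ℝ) (b : ι) : ℝ := v b - dot (u b) x

lemma dep_res (u : ι → Fin 3 → ℝ) (v : ι → ℝ) (x : Fin 3 → ℝ) (a b c d : ι) :
    dep u (res u v x) a b c d = dep u v a b c d := by
  simp only [dep, res, dot, det3]; ring

lemma dep_comm_ab (u : ι → Fin 3 → ℝ) (v : ι → ℝ) (a b c d : ι) :
    dep u v b a c d = -dep u v a b c d := by
  simp only [dep, det3]; ring

lemma dep_comm_bc (u : ι → Fin 3 → ℝ) (v : ι → ℝ) (a b c d : ι) :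
    dep u v a c b d = -dep u v a b c d := by
  simp only [dep, det3]; ring

lemma dep_comm_cd (u : ι → Fin 3 → ℝ) (v : ι → ℝ) (a b c d : ι) :
    dep u v a b d c = -dep u v a b c d := by
  simp only [dep, det3]; ring

lemma depProd_comm_ab (u : ι → Fin 3 → ℝ) (a b c d : ι) :
    depProd u b a c d = depProd u a b c d := by
  simp only [depProd, det3]; ring

lemma depProd_comm_bc (u : ι → Fin 3 → ℝ) (a b c d : ι) :
    depProd u a c b d = depProd u a b c d := by
  simp only [depProd, det3]; ring

lemma depProd_comm_cd (u : ι → Fin 3 → ℝ) (a b c d : ι) :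
    depProd u a b d c = depProd u a b c d := by
  simp only [depProd, det3]; ring

variable [Fintype ι]

/-- Nested sum over all ordered quadruples. -/
def sum4 (f : ι → ι → ι → ι → ℝ) : ℝ := ∑ a, ∑ b, ∑ c, ∑ d, f a b c d

variable (f g : ι → ι → ι → ι → ℝ)

lemma sum4_comm_cd : sum4 (fun a b c d => f a b d c) = sum4 f :=
  Finset.sum_congr rfl fun _ _ => Finset.sum_congr rfl fun _ _ => Finset.sum_comm

lemma sum4_comm_bc : sum4 (fun a b c d => f a c b d) = sum4 f :=
  Finset.sum_congr rfl fun _ _ => Finset.sum_comm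

lemma sum4_comm_ab : sum4 (fun a b c d => f b a c d) = sum4 f := Finset.sum_comm

lemma sum4_comm_bd : sum4 (fun a b c d => f a d c b) = sum4 f :=
  (sum4_comm_cd fun a b c d => f a c d b).trans
    ((sum4_comm_bc fun a b c d => f a b d c).trans (sum4_comm_cd f))

lemma sum4_comm_ac : sum4 (fun a b c d => f c b a d) = sum4 f :=
  (sum4_comm_bc fun a b c d => f b c a d).trans
    ((sum4_comm_ab fun a b c d => f a c b d).trans (sum4_comm_bc f))

lemma sum4_comm_ad : sum4 (fun a b c d => f d b c a) = sum4 f :=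
  (sum4_comm_cd fun a b c d => f c b d a).trans
    ((sum4_comm_ac fun a b c d => f a b d c).trans (sum4_comm_cd f))

lemma sum4_add : sum4 (fun a b c d => f a b c d + g a b c d) = sum4 f + sum4 g := by
  simp only [sum4, Finset.sum_add_distrib]

lemma sum4_smul (r : ℝ) : sum4 (fun a b c d => r * f a b c d) = r * sum4 f := by
  simp only [sum4, Finset.mul_sum]

/-- Positivity of the fourth-derivative form. `Q a b c d` is the weight of the quadruple. -/
theorem quad_form_nonneg (u : ι → Fin 3 → ℝ) (w z : ι → ℝ)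
    (x1 : ι → Fin 3 → ℝ) (x2 : ι → ι → Fin 3 → ℝ) (x3 : ι → ι → ι → Fin 3 → ℝ)
    (Q : ι → ι → ι → ι → ℝ) (hQ : ∀ a b c d, 0 ≤ Q a b c d)
    (hab : ∀ a b c d, Q b a c d = Q a b c d) (hbc : ∀ a b c d, Q a c b d = Q a b c d)
    (hcd : ∀ a b c d, Q a b d c = Q a b c d)
    (hpos : ∀ a b c d, Q a b c d ≠ 0 → 0 < depProd u a b c d)
    (h1 : ∀ a b c d, Q a b c d ≠ 0 → dot (u a) (x1 a) = w a)
    (h2 : ∀ a b c d, Q a b c d ≠ 0 →
      dot (u a) (x2 a b) = z a ∧ dot (u b) (x2 a b) = z b)
    (h3 : ∀ a b c d, Q a b c d ≠ 0 → dot (u a) (x3 a b c) = z a ∧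
      dot (u b) (x3 a b c) = z b ∧ dot (u c) (x3 a b c) = z c) :
    0 ≤ sum4 fun a b c d =>
      w a * res u w (x1 a) b * res u z (x2 a b) c * res u z (x3 a b c) d * Q a b c d := by
  set T := fun a b c d =>
    w a * res u w (x1 a) b * res u z (x2 a b) c * res u z (x3 a b c) d * Q a b c d with hT
  set K := fun a b c d => dep u z a b c d ^ 2 / depProd u a b c d * Q a b c d with hK
  set L := fun a b c d => K a b c d * (dep u w a b c d) ^ 2 with hL
  have hKab : ∀ a b c d, K b a c d = K a b c d := fun a b c d => by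
    simp only [hK]; rw [dep_comm_ab, depProd_comm_ab, hab, neg_sq]
  have hKbc : ∀ a b c d, K a c b d = K a b c d := fun a b c d => by
    simp only [hK]; rw [dep_comm_bc, depProd_comm_bc, hbc, neg_sq]
  have hKcd : ∀ a b c d, K a b d c = K a b c d := fun a b c d => by
    simp only [hK]; rw [dep_comm_cd, depProd_comm_cd, hcd, neg_sq]
  -- first symmetrisation, in `c` and `d`
  set T2 := fun a b c d => K a b c d * (w a * det3 (u b) (u c) (u d))
    * (-(res u w (x1 a) b * det3 (u a) (u c) (u d))) with hT2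
  have e1 : ∀ a b c d, T a b c d + T a b d c = T2 a b c d := by
    intro a b c d
    by_cases hq : Q a b c d = 0
    · simp [hT, hT2, hK, hq, hcd]
    have hP := (hpos a b c d hq).ne'
    have hq' : Q a b d c ≠ 0 := by rw [hcd]; exact hq
    obtain ⟨hb1, hb2⟩ := h2 a b c d hq
    obtain ⟨hc1, hc2, hc3⟩ := h3 a b c d hq
    obtain ⟨hd1, hd2, hd3⟩ := h3 a b d c hq'
    have E2 : dep u z a b c d = res u z (x2 a b) c * det3 (u a) (u b) (u d)
        - res u z (x2 a b) d * det3 (u a) (u b) (u c) := by
      rw [← dep_res u z (x2 a b)]; simp [dep, res, hb1, hb2]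
    have E3 : dep u z a b c d = -(res u z (x3 a b c) d * det3 (u a) (u b) (u c)) := by
      rw [← dep_res u z (x3 a b c)]; simp [dep, res, hc1, hc2, hc3]
    have E3' : dep u z a b c d = res u z (x3 a b d) c * det3 (u a) (u b) (u d) := by
      rw [← dep_res u z (x3 a b d)]; simp [dep, res, hd1, hd2, hd3]
    simp only [hT, hT2, hK, hcd]
    generalize hX : dep u z a b c d = X at E2 E3 E3'
    unfold depProd at hP ⊢
    generalize det3 (u b) (u c) (u d) = A at *
    generalize det3 (u a) (u c) (u d) = B at *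
    generalize det3 (u a) (u b) (u d) = C at *
    generalize det3 (u a) (u b) (u c) = D at *
    generalize res u z (x2 a b) c = rc at *
    generalize res u z (x2 a b) d = rd at *
    generalize res u z (x3 a b c) d = sd at *
    generalize res u z (x3 a b d) c = sc at *
    field_simp
    grobner
  -- second symmetrisation, in `b, c, d`
  set T3 := fun a b c d => K a b c d * (w a * det3 (u b) (u c) (u d)) * dep u w a b c d with hT3
  have e2 : ∀ a b c d, T2 a b c d + T2 a c b d + T2 a d c b = T3 a b c d := by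
    intro a b c d
    have k1 : K a c b d = K a b c d := hKbc a b c d
    have k2 : K a d c b = K a b c d := by rw [hKcd a d b c, hKbc, hKcd]
    by_cases hq : Q a b c d = 0
    · have q1 : Q a c b d = 0 := by rw [hbc, hq]
      have q2 : Q a d c b = 0 := by rw [hcd a d b c, hbc, hcd, hq]
      simp [hT2, hT3, hK, hq, q1, q2]
    have h := h1 a b c d hq
    have E1 : dep u w a b c d = -(res u w (x1 a) b * det3 (u a) (u c) (u d))
        + res u w (x1 a) c * det3 (u a) (u b) (u d)
        - res u w (x1 a) d * det3 (u a) (u b) (u c) := by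
      rw [← dep_res u w (x1 a)]; simp [dep, res, h]
    simp only [hT2, hT3, k1, k2, E1]
    simp only [det3]; ring
  -- third symmetrisation
  have e3 : ∀ a b c d, T3 a b c d + T3 b a c d + T3 c b a d + T3 d b c a = L a b c d := by
    intro a b c d
    have k1 : K b a c d = K a b c d := hKab a b c d
    have k2 : K c b a d = K a b c d := by rw [hKbc c a b d, hKab, hKbc]
    have k3 : K d b c a = K a b c d := by
      rw [hKcd d b a c, hKbc d a b c, hKab, hKbc a b d c, hKcd]
    simp only [hT3, hL, k1, k2, k3]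
    simp only [dep, det3]; ring
  have s1 : 2 * sum4 T = sum4 T2 := by
    have : sum4 (fun a b c d => T a b c d + T a b d c) = sum4 T2 := by simp only [e1]
    rw [sum4_add, sum4_comm_cd T] at this; linarith
  have s2 : 3 * sum4 T2 = sum4 T3 := by
    have : sum4 (fun a b c d => T2 a b c d + T2 a c b d + T2 a d c b) = sum4 T3 := by simp only [e2]
    rw [sum4_add (fun a b c d => T2 a b c d + T2 a c b d), sum4_add, sum4_comm_bc T2,
      sum4_comm_bd T2] at this
    linarith
  have s3 : 4 * sum4 T3 = sum4 L := by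
    have : sum4 (fun a b c d => T3 a b c d + T3 b a c d + T3 c b a d + T3 d b c a) = sum4 L := by
      simp only [e3]
    rw [sum4_add (fun a b c d => T3 a b c d + T3 b a c d + T3 c b a d),
      sum4_add (fun a b c d => T3 a b c d + T3 b a c d), sum4_add, sum4_comm_ab T3, sum4_comm_ac T3,
      sum4_comm_ad T3] at this
    linarith
  have hL0 : 0 ≤ sum4 L := by
    refine Finset.sum_nonneg fun a _ => Finset.sum_nonneg fun b _ =>
      Finset.sum_nonneg fun c _ => Finset.sum_nonneg fun d _ => ?_
    by_cases hq : Q a b c d = 0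
    · simp [hL, hK, hq]
    · have := hpos a b c d hq
      exact mul_nonneg (mul_nonneg (div_nonneg (sq_nonneg _) this.le) (hQ a b c d)) (sq_nonneg _)
  linarith

end Vale.Agent.P227.Kink
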