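import Mathlib
import Vale.Agent.P227.Lp3.Kink.Algebra

/-!
# Convexity of second differences of the volume of a polytope (P227)

Smoothed volume `G ∅` and its weights `G S`: the fourth derivative is a nonnegative combination
of the weights of quadruples as soon as every near-concurrent quadruple has a dependence with two
positive and two negative coefficients.
-/

open Finset MeasureTheory Filter Set Real
open scoped Topology

namespace Vale.Agent.P227.Kink

/-- A smooth step which vanishes on `t ≤ 0` and is `1` for `t ≥ ε`. -/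
noncomputable def step (ε t : ℝ) : ℝ := smoothTransition (t / ε)

lemma contDiff_step (ε : ℝ) : ContDiff ℝ 1 (step ε) :=
  smoothTransition.contDiff.comp (contDiff_id.div_const ε)

lemma continuous_deriv_step (ε : ℝ) : Continuous (deriv (step ε)) :=
  (contDiff_step ε).continuous_deriv le_rfl

lemma hasDerivAt_step (ε t : ℝ) : HasDerivAt (step ε) (deriv (step ε) t) t :=
  ((contDiff_step ε).differentiable one_ne_zero t).hasDerivAt

lemma deriv_step_nonneg {ε : ℝ} (hε : 0 < ε) (t : ℝ) : 0 ≤ deriv (step ε) t :=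
  Monotone.deriv_nonneg (fun _ _ hxy => smoothTransition.monotone (by gcongr))

lemma deriv_step_ne {ε : ℝ} (hε : 0 < ε) {t : ℝ} (h : deriv (step ε) t ≠ 0) :
    0 ≤ t ∧ t ≤ ε := by
  constructor
  · by_contra! ht
    refine h ((EventuallyEq.deriv_eq (f := fun _ => (0:ℝ)) ?_).trans (deriv_const t 0))
    filter_upwards [Iio_mem_nhds ht] with s hs
    exact smoothTransition.zero_of_nonpos (div_nonpos_of_nonpos_of_nonneg (le_of_lt hs) hε.le)
  · by_contra! ht
    refine h ((EventuallyEq.deriv_eq (f := fun _ => (1:ℝ)) ?_).trans (deriv_const t 1))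
    filter_upwards [Ioi_mem_nhds ht] with s hs
    exact smoothTransition.one_of_one_le (by rw [le_div_iff₀ hε]; linarith [Set.mem_Ioi.1 hs])

lemma dot_add (x y y' : Fin 3 → ℝ) : dot x (y + y') = dot x y + dot x y' := by
  simp only [dot, Pi.add_apply]; ring

lemma dot_smul (x y : Fin 3 → ℝ) (t : ℝ) : dot x (t • y) = t * dot x y := by
  simp only [dot, Pi.smul_apply, smul_eq_mul]; ring

lemma continuous_dot_right (x : Fin 3 → ℝ) : Continuous (dot x) := by
  unfold dot; fun_prop

variable {ι : Type*} [Fintype ι] [DecidableEq ι] (u : ι → Fin 3 → ℝ)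

/-- The body `{x | u k · x ≤ h k}` is bounded, uniformly in `h`. -/
def Bdd : Prop := ∃ C : ℝ, ∀ x : Fin 3 → ℝ, ∀ r : ℝ, 0 ≤ r →
  (∀ k, dot (u k) x ≤ r) → ‖x‖ ≤ C * r

/-- `x` lies in the body and `ε`-close to every plane indexed by `S`. -/
def Near (ε : ℝ) (S : Finset ι) (h : ι → ℝ) (x : Fin 3 → ℝ) : Prop :=
  (∀ k, dot (u k) x ≤ h k) ∧ ∀ a ∈ S, h a - ε ≤ dot (u a) x

/-- The functionals indexed by `S` take arbitrary values. -/
def Solv (S : Finset ι) : Prop := ∀ v : ι → ℝ, ∃ x : Fin 3 → ℝ, ∀ a ∈ S, dot (u a) x = v a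

open Classical in
/-- A chosen point with the values `v` on `S`. -/
noncomputable def sol (S : Finset ι) (v : ι → ℝ) : Fin 3 → ℝ :=
  if h : ∃ x : Fin 3 → ℝ, ∀ a ∈ S, dot (u a) x = v a then h.choose else 0

lemma sol_spec {S : Finset ι} (hS : Solv u S) (v : ι → ℝ) {a : ι} (ha : a ∈ S) :
    dot (u a) (sol u S v) = v a := by
  simp only [sol, dif_pos (hS v)]
  exact (hS v).choose_spec a ha

/-- The integrand of `G`. -/
noncomputable def dens (ε : ℝ) (S : Finset ι) (h : ι → ℝ) (x : Fin 3 → ℝ) : ℝ :=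
  ∏ k, if k ∈ S then deriv (step ε) (h k - dot (u k) x) else step ε (h k - dot (u k) x)

/-- Smoothed measure of the part of the body lying on the planes indexed by `S`. -/
noncomputable def G (ε : ℝ) (S : Finset ι) (h : ι → ℝ) : ℝ := ∫ x, dens u ε S h x

lemma dens_near {ε : ℝ} (hε : 0 < ε) {S : Finset ι} {h : ι → ℝ} {x : Fin 3 → ℝ}
    (hx : dens u ε S h x ≠ 0) : Near u ε S h x := by
  refine ⟨fun k => ?_, fun a ha => ?_⟩
  · have h1 := Finset.prod_ne_zero_iff.1 hx k (Finset.mem_univ k)
    by_cases hk : k ∈ S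
    · rw [if_pos hk] at h1; linarith [(deriv_step_ne hε h1).1]
    · rw [if_neg hk] at h1
      by_contra! hlt
      exact h1 (smoothTransition.zero_of_nonpos
        (div_nonpos_of_nonpos_of_nonneg (by linarith) hε.le))
  · have h1 := Finset.prod_ne_zero_iff.1 hx a (Finset.mem_univ a)
    rw [if_pos ha] at h1; linarith [(deriv_step_ne hε h1).2]

lemma dens_nonneg {ε : ℝ} (hε : 0 < ε) (S : Finset ι) (h : ι → ℝ) (x : Fin 3 → ℝ) :
    0 ≤ dens u ε S h x :=
  Finset.prod_nonneg fun k _ => by
    split_ifs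
    · exact deriv_step_nonneg hε _
    · exact smoothTransition.nonneg _

lemma G_nonneg {ε : ℝ} (hε : 0 < ε) (S : Finset ι) (h : ι → ℝ) : 0 ≤ G u ε S h :=
  integral_nonneg (dens_nonneg u hε S h)

lemma G_eq_zero {ε : ℝ} (hε : 0 < ε) {S : Finset ι} {h : ι → ℝ}
    (hS : ∀ x, ¬Near u ε S h x) : G u ε S h = 0 := by
  have : dens u ε S h = fun _ => 0 := funext fun x => not_not.1 fun hx => hS x (dens_near u hε hx)
  simp [G, this]

lemma exists_near_of_G_ne {ε : ℝ} (hε : 0 < ε) {S : Finset ι} {h : ι → ℝ}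
    (hS : G u ε S h ≠ 0) : ∃ x, Near u ε S h x :=
  not_forall_not.1 fun hh => hS (G_eq_zero u hε hh)

lemma continuous_dens (ε : ℝ) (S : Finset ι) :
    Continuous fun p : (ι → ℝ) × (Fin 3 → ℝ) => dens u ε S p.1 p.2 := by
  refine continuous_finsetProd _ fun k _ => ?_
  have hk : Continuous fun p : (ι → ℝ) × (Fin 3 → ℝ) => p.1 k - dot (u k) p.2 :=
    ((continuous_apply k).comp continuous_fst).sub ((continuous_dot_right _).comp continuous_snd)
  by_cases h : k ∈ S
  · simpa [h, Function.comp_def] using (continuous_deriv_step ε).comp hk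
  · simpa [h, Function.comp_def] using (contDiff_step ε).continuous.comp hk

lemma integrable_dens (hu : Bdd u) {ε : ℝ} (hε : 0 < ε) (S : Finset ι) (h : ι → ℝ) :
    Integrable (dens u ε S h) := by
  obtain ⟨C, hC⟩ := hu
  refine Continuous.integrable_of_hasCompactSupport
    ((continuous_dens u ε S).comp (continuous_const.prodMk continuous_id)) ?_
  refine HasCompactSupport.intro (isCompact_closedBall (0:Fin 3 → ℝ) (C * ‖h‖)) fun x hx => ?_
  by_contra hne
  refine hx (mem_closedBall_zero_iff.2 (hC x _ (norm_nonneg h) fun k => ?_))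
  exact ((dens_near u hε hne).1 k).trans ((le_abs_self _).trans (norm_le_pi_norm h k))

lemma continuous_G (hu : Bdd u) {ε : ℝ} (hε : 0 < ε) (S : Finset ι) : Continuous (G u ε S) := by
  obtain ⟨C, hC⟩ := hu
  refine continuous_iff_continuousAt.2 fun h => ?_
  obtain ⟨M, hM⟩ := ((isCompact_closedBall h 1).prod (isCompact_closedBall (0:Fin 3 → ℝ)
    (|C| * (‖h‖ + 1)))).exists_bound_of_continuousOn (continuous_dens u ε S).continuousOn
  refine continuousAt_of_dominated
    (bound := (Metric.closedBall (0:Fin 3 → ℝ) (|C| * (‖h‖ + 1))).indicator fun _ => M)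
    (Eventually.of_forall fun g => (integrable_dens u ⟨C, hC⟩ hε S g).aestronglyMeasurable) ?_
    ((integrable_indicator_iff measurableSet_closedBall).2
      (integrableOn_const (hs := measure_closedBall_lt_top.ne)))
    (Eventually.of_forall fun x =>
      ((continuous_dens u ε S).comp (continuous_id.prodMk continuous_const)).continuousAt)
  filter_upwards [Metric.closedBall_mem_nhds h one_pos] with g hg
  refine Eventually.of_forall fun x => ?_
  by_cases hx : x ∈ Metric.closedBall (0:Fin 3 → ℝ) (|C| * (‖h‖ + 1))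
  · rw [indicator_of_mem hx]
    exact hM (g, x) ⟨hg, hx⟩
  · rw [indicator_of_notMem hx]
    refine le_of_eq (norm_eq_zero.2 ?_)
    by_contra hne
    refine hx (mem_closedBall_zero_iff.2 ?_)
    have h0 : 0 ≤ ‖h‖ + 1 := by positivity
    refine (hC x _ h0 fun k => ?_).trans (mul_le_mul_of_nonneg_right (le_abs_self C) h0)
    refine ((dens_near u hε hne).1 k).trans ((le_abs_self _).trans ((norm_le_pi_norm g k).trans ?_))
    rw [Metric.mem_closedBall, dist_eq_norm] at hg
    linarith [norm_le_norm_add_norm_sub' g h]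

/-- Translation invariance: moving `h` by the values of a functional does not change `G`. -/
lemma G_shift (ε : ℝ) (S : Finset ι) (h z : ι → ℝ) (x0 : Fin 3 → ℝ) (t : ℝ) :
    G u ε S (h + t • z) = G u ε S (h + t • res u z x0) := by
  rw [G, G, ← integral_add_right_eq_self _ (t • x0)]
  refine integral_congr_ae (Eventually.of_forall fun x => Finset.prod_congr rfl fun k _ => ?_)
  simp only [res, dot_add, dot_smul, Pi.add_apply, Pi.smul_apply, smul_eq_mul]
  ring_nf

lemma hasDerivAt_G (hu : Bdd u) {ε : ℝ} (hε : 0 < ε) (S : Finset ι) (h z : ι → ℝ)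
    (x0 : Fin 3 → ℝ) (hx0 : ∀ a ∈ S, dot (u a) x0 = z a) (t : ℝ) :
    HasDerivAt (fun t => G u ε S (h + t • z))
      (∑ b ∈ Sᶜ, res u z x0 b * G u ε (insert b S) (h + t • z)) t := by
  set r := res u z x0 with hr
  simp_rw [G_shift u ε _ h z x0, ← hr]
  have hrS : ∀ a ∈ S, r a = 0 := fun a ha => by simp [hr, res, hx0 a ha]
  set F' : ℝ → (Fin 3 → ℝ) → ℝ := fun s x =>
    ∑ b ∈ Sᶜ, r b * dens u ε (insert b S) (h + s • r) x with hF'
  obtain ⟨C, hC⟩ := hu
  set R := |C| * (‖h‖ + (|t| + 1) * ‖r‖) with hR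
  have hcont : Continuous fun p : ℝ × (Fin 3 → ℝ) => F' p.1 p.2 := by
    refine continuous_finsetSum _ fun b _ => continuous_const.mul ?_
    exact (continuous_dens u ε _).comp
      ((continuous_const.add (continuous_fst.smul continuous_const)).prodMk continuous_snd)
  obtain ⟨M, hM⟩ := (isCompact_closedBall t 1 |>.prod
    (isCompact_closedBall (0:Fin 3 → ℝ) R)).exists_bound_of_continuousOn hcont.continuousOn
  have hsupp : ∀ s ∈ Metric.closedBall t 1, ∀ S' : Finset ι, ∀ x ∉ Metric.closedBall (0:Fin 3 → ℝ) R,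
      dens u ε S' (h + s • r) x = 0 := by
    intro s hs S' x hx
    by_contra hne
    refine hx (mem_closedBall_zero_iff.2 ?_)
    have hs' : ‖h + s • r‖ ≤ ‖h‖ + (|t| + 1) * ‖r‖ := by
      refine (norm_add_le _ _).trans (add_le_add le_rfl ?_)
      rw [norm_smul, Real.norm_eq_abs]
      refine mul_le_mul_of_nonneg_right ?_ (norm_nonneg _)
      rw [Metric.mem_closedBall, Real.dist_eq] at hs
      linarith [abs_sub_abs_le_abs_sub s t]
    have h0 : 0 ≤ ‖h‖ + (|t| + 1) * ‖r‖ := by positivity
    refine (hC x _ h0 fun k => ?_).trans (mul_le_mul_of_nonneg_right (le_abs_self C) h0)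
    exact ((dens_near u hε hne).1 k).trans
      (((le_abs_self _).trans (norm_le_pi_norm (h + s • r) k)).trans hs')
  have hderiv : ∀ s : ℝ, ∀ x, HasDerivAt (fun s => dens u ε S (h + s • r) x) (F' s x) s := by
    intro s x
    have hk : ∀ k ∈ (Finset.univ : Finset ι), HasDerivAt
        (fun s => if k ∈ S then deriv (step ε) ((h + s • r) k - dot (u k) x)
          else step ε ((h + s • r) k - dot (u k) x))
        (if k ∈ S then 0 else deriv (step ε) ((h + s • r) k - dot (u k) x) * r k) s := by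
      intro k _
      by_cases hkS : k ∈ S
      · simp only [if_pos hkS, Pi.add_apply, Pi.smul_apply, hrS k hkS, smul_zero, add_zero]
        exact hasDerivAt_const _ _
      · simp only [if_neg hkS]
        refine (hasDerivAt_step ε _).comp s ?_
        simpa using (((hasDerivAt_id s).mul_const (r k)).const_add (h k)).sub_const (dot (u k) x)
    have hprod := HasDerivAt.fun_finsetProd hk
    refine hprod.congr_deriv ?_
    rw [hF', ← Finset.sum_compl_add_sum S]
    rw [Finset.sum_eq_zero (s := S) (fun a ha => by simp [if_pos ha]), add_zero]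
    refine Finset.sum_congr rfl fun b hb => ?_
    have hb' : b ∉ S := by simpa using hb
    rw [if_neg hb', smul_eq_mul, dens,
      ← Finset.mul_prod_erase Finset.univ _ (Finset.mem_univ b), if_pos (Finset.mem_insert_self b S)]
    have : ∀ k ∈ Finset.univ.erase b,
        (if k ∈ insert b S then deriv (step ε) ((h + s • r) k - dot (u k) x)
          else step ε ((h + s • r) k - dot (u k) x)) =
        if k ∈ S then deriv (step ε) ((h + s • r) k - dot (u k) x)
          else step ε ((h + s • r) k - dot (u k) x) := fun k hk => by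
      have : k ≠ b := (Finset.mem_erase.1 hk).1
      simp [this]
    rw [Finset.prod_congr rfl this]
    ring
  have hbound : ∀ s ∈ Metric.ball t 1, ∀ x, ‖F' s x‖ ≤
      (Metric.closedBall (0:Fin 3 → ℝ) R).indicator (fun _ => M) x := by
    intro s hs x
    by_cases hx : x ∈ Metric.closedBall (0:Fin 3 → ℝ) R
    · rw [indicator_of_mem hx]
      exact hM (s, x) ⟨Metric.ball_subset_closedBall hs, hx⟩
    · rw [indicator_of_notMem hx]
      have : F' s x = 0 := Finset.sum_eq_zero fun b _ => by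
        rw [hsupp s (Metric.ball_subset_closedBall hs) _ x hx, mul_zero]
      simp [this]
  have hu' : Bdd u := ⟨C, hC⟩
  have hd := (hasDerivAt_integral_of_dominated_loc_of_deriv_le (Metric.ball_mem_nhds t one_pos)
    (Eventually.of_forall fun s => (integrable_dens u hu' hε S _).aestronglyMeasurable)
    (integrable_dens u hu' hε S _)
    ((hcont.comp (continuous_const.prodMk continuous_id)).aestronglyMeasurable)
    (Eventually.of_forall fun x s hs => hbound s hs x)
    ((integrable_indicator_iff measurableSet_closedBall).2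
      (integrableOn_const (hs := (measure_closedBall_lt_top).ne)))
    (Eventually.of_forall fun x s _ => hderiv s x)).2
  refine hd.congr_deriv ?_
  simp only [hF', G]
  rw [integral_finsetSum _ fun b _ => (integrable_dens u hu' hε _ _).const_mul _]
  simp only [integral_const_mul]

/-- The derivative with the chosen functional, also when the planes of `S` never meet. -/
lemma hasDerivAt_G_sol (hu : Bdd u) {ε : ℝ} (hε : 0 < ε) (S : Finset ι) (h z : ι → ℝ) (t : ℝ)
    (hS : Solv u S ∨ ∀ᶠ s in 𝓝 t, ∀ x, ¬Near u ε S (h + s • z) x) :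
    HasDerivAt (fun s => G u ε S (h + s • z))
      (∑ b ∈ Sᶜ, res u z (sol u S z) b * G u ε (insert b S) (h + t • z)) t := by
  rcases hS with hS | hS
  · exact hasDerivAt_G u hu hε S h z _ (fun a ha => sol_spec u hS z ha) t
  · have h0 : (∑ b ∈ Sᶜ, res u z (sol u S z) b * G u ε (insert b S) (h + t • z)) = 0 := by
      refine Finset.sum_eq_zero fun b _ => ?_
      rw [G_eq_zero u hε fun x hx => hS.self_of_nhds x
        ⟨hx.1, fun a ha => hx.2 a (Finset.mem_insert_of_mem ha)⟩, mul_zero]
    rw [h0]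
    exact (hasDerivAt_const t (0:ℝ)).congr_of_eventuallyEq (hS.mono fun s hs => G_eq_zero u hε hs)

/-- Regularity of the near-concurrent families on a set of right-hand sides. -/
structure Reg (ε : ℝ) (U : Set (ι → ℝ)) : Prop where
  one : ∀ a : ι, Solv u {a}
  two : ∀ h ∈ U, ∀ x, ∀ a b : ι, a ≠ b → Near u ε (insert b {a}) h x → Solv u (insert b {a})
  three : ∀ h ∈ U, ∀ x, ∀ a b c : ι, a ≠ b → a ≠ c → b ≠ c →
    Near u ε (insert c (insert b {a})) h x → Solv u (insert c (insert b {a}))
  four : ∀ h ∈ U, ∀ x, ∀ a b c d : ι, a ≠ b → a ≠ c → a ≠ d → b ≠ c → b ≠ d → c ≠ d →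
    Near u ε (insert d (insert c (insert b {a}))) h x → 0 < depProd u a b c d

/-- First derivative of `G ∅` along `w`. -/
noncomputable def d1 (ε : ℝ) (w h : ι → ℝ) : ℝ := ∑ a, w a * G u ε {a} h

/-- Second derivative of `G ∅` along `w`. -/
noncomputable def d2 (ε : ℝ) (w h : ι → ℝ) : ℝ :=
  ∑ a, w a * ∑ b ∈ ({a} : Finset ι)ᶜ, res u w (sol u {a} w) b * G u ε (insert b {a}) h

/-- Derivative of `d2` along `z`. -/
noncomputable def d3 (ε : ℝ) (w z h : ι → ℝ) : ℝ :=
  ∑ a, w a * ∑ b ∈ ({a} : Finset ι)ᶜ, res u w (sol u {a} w) b *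
    ∑ c ∈ (insert b {a} : Finset ι)ᶜ, res u z (sol u (insert b {a}) z) c *
      G u ε (insert c (insert b {a})) h

/-- Derivative of `d3` along `z`. -/
noncomputable def d4 (ε : ℝ) (w z h : ι → ℝ) : ℝ :=
  ∑ a, w a * ∑ b ∈ ({a} : Finset ι)ᶜ, res u w (sol u {a} w) b *
    ∑ c ∈ (insert b {a} : Finset ι)ᶜ, res u z (sol u (insert b {a}) z) c *
      ∑ d ∈ (insert c (insert b {a}) : Finset ι)ᶜ,
        res u z (sol u (insert c (insert b {a})) z) d *
          G u ε (insert d (insert c (insert b {a}))) h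

lemma hasDerivAt_d0 (hu : Bdd u) {ε : ℝ} (hε : 0 < ε) (h w : ι → ℝ) (t : ℝ) :
    HasDerivAt (fun s => G u ε ∅ (h + s • w)) (d1 u ε w (h + t • w)) t := by
  refine (hasDerivAt_G u hu hε ∅ h w 0 (by simp) t).congr_deriv ?_
  rw [Finset.compl_empty]
  refine Finset.sum_congr rfl fun a _ => ?_
  simp [res, dot]

lemma hasDerivAt_d1 (hu : Bdd u) {ε : ℝ} (hε : 0 < ε) {U : Set (ι → ℝ)} (hU : Reg u ε U)
    (h w : ι → ℝ) (t : ℝ) :
    HasDerivAt (fun s => d1 u ε w (h + s • w)) (d2 u ε w (h + t • w)) t := by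
  simp only [d1, d2]
  exact HasDerivAt.fun_sum fun a _ =>
    ((hasDerivAt_G_sol u hu hε {a} h w t (Or.inl (hU.one a))).const_mul (w a))

lemma hasDerivAt_d2 (hu : Bdd u) {ε : ℝ} (hε : 0 < ε) {U : Set (ι → ℝ)} (hU : Reg u ε U)
    (h w z : ι → ℝ) (t : ℝ) (ht : ∀ᶠ s in 𝓝 t, h + s • z ∈ U) :
    HasDerivAt (fun s => d2 u ε w (h + s • z)) (d3 u ε w z (h + t • z)) t := by
  simp only [d2, d3]
  refine HasDerivAt.fun_sum fun a _ => ((HasDerivAt.fun_sum fun b hb => ?_).const_mul (w a))
  refine (hasDerivAt_G_sol u hu hε _ h z t ?_).const_mul _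
  by_cases hs : Solv u (insert b {a})
  · exact Or.inl hs
  · have hab : a ≠ b := fun e => by simp [e] at hb
    exact Or.inr (ht.mono fun s hsU x hx => hs (hU.two _ hsU x a b hab hx))

lemma hasDerivAt_d3 (hu : Bdd u) {ε : ℝ} (hε : 0 < ε) {U : Set (ι → ℝ)} (hU : Reg u ε U)
    (h w z : ι → ℝ) (t : ℝ) (ht : ∀ᶠ s in 𝓝 t, h + s • z ∈ U) :
    HasDerivAt (fun s => d3 u ε w z (h + s • z)) (d4 u ε w z (h + t • z)) t := by
  simp only [d3, d4]
  refine HasDerivAt.fun_sum fun a _ => ((HasDerivAt.fun_sum fun b hb => ?_).const_mul (w a))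
  refine (HasDerivAt.fun_sum fun c hc => ?_).const_mul _
  refine (hasDerivAt_G_sol u hu hε _ h z t ?_).const_mul _
  by_cases hs : Solv u (insert c (insert b {a}))
  · exact Or.inl hs
  · have hab : a ≠ b := fun e => by simp [e] at hb
    have hac : a ≠ c := fun e => by simp [e] at hc
    have hbc : b ≠ c := fun e => by simp [e] at hc
    exact Or.inr (ht.mono fun s hsU x hx => hs (hU.three _ hsU x a b c hab hac hbc hx))

lemma d4_nonneg {ε : ℝ} (hε : 0 < ε) {U : Set (ι → ℝ)} (hU : Reg u ε U)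
    (w z h : ι → ℝ) (hh : h ∈ U) : 0 ≤ d4 u ε w z h := by
  set Q : ι → ι → ι → ι → ℝ := fun a b c d =>
    if a ≠ b ∧ a ≠ c ∧ a ≠ d ∧ b ≠ c ∧ b ≠ d ∧ c ≠ d then
      G u ε (insert d (insert c (insert b {a}))) h else 0 with hQ
  have near : ∀ a b c d, Q a b c d ≠ 0 → (a ≠ b ∧ a ≠ c ∧ a ≠ d ∧ b ≠ c ∧ b ≠ d ∧ c ≠ d) ∧
      ∃ x, Near u ε (insert d (insert c (insert b {a}))) h x := by
    intro a b c d hne
    simp only [hQ] at hne
    split_ifs at hne with hd
    · exact ⟨hd, exists_near_of_G_ne u hε hne⟩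
    · exact absurd rfl hne
  have hmain := quad_form_nonneg u w z (fun a => sol u {a} w)
    (fun a b => sol u (insert b {a}) z) (fun a b c => sol u (insert c (insert b {a})) z) Q
    (fun a b c d => by simp only [hQ]; split_ifs <;> simp [G_nonneg u hε])
    (fun a b c d => by
      simp only [hQ]; refine if_congr (by tauto) ?_ rfl
      congr 1; ext k; simp; tauto)
    (fun a b c d => by
      simp only [hQ]; refine if_congr (by tauto) ?_ rfl
      congr 1; ext k; simp; tauto)
    (fun a b c d => by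
      simp only [hQ]; refine if_congr (by tauto) ?_ rfl
      congr 1; ext k; simp; tauto)
    (fun a b c d hne => by
      obtain ⟨⟨h1, h2, h3, h4, h5, h6⟩, x, hx⟩ := near a b c d hne
      exact hU.four h hh x a b c d h1 h2 h3 h4 h5 h6 hx)
    (fun a b c d _ => sol_spec u (hU.one a) w (Finset.mem_singleton_self a))
    (fun a b c d hne => by
      obtain ⟨⟨h1, -⟩, x, hx⟩ := near a b c d hne
      have hS := hU.two h hh x a b h1 ⟨hx.1, fun k hk => hx.2 k (by simp at hk ⊢; tauto)⟩
      exact ⟨sol_spec u hS z (by simp), sol_spec u hS z (by simp)⟩)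
    (fun a b c d hne => by
      obtain ⟨⟨h1, h2, -, h4, -⟩, x, hx⟩ := near a b c d hne
      have hS := hU.three h hh x a b c h1 h2 h4 ⟨hx.1, fun k hk => hx.2 k (by simp at hk ⊢; tauto)⟩
      exact ⟨sol_spec u hS z (by simp), sol_spec u hS z (by simp), sol_spec u hS z (by simp)⟩)
  refine hmain.trans_eq ?_
  have hcompl : ∀ (S : Finset ι) (f : ι → ℝ), ∑ b ∈ Sᶜ, f b = ∑ b, if b ∉ S then f b else 0 :=
    fun S f => by rw [← Finset.sum_filter]; congr 1; ext; simp
  simp only [d4, sum4, hcompl, Finset.mul_sum]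
  refine Finset.sum_congr rfl fun a _ => Finset.sum_congr rfl fun b _ => ?_
  by_cases hab : b = a
  · simp [hQ, hab]
  rw [if_pos (by simpa using hab)]
  simp only [Finset.mul_sum]
  refine Finset.sum_congr rfl fun c _ => ?_
  by_cases hc : c ∈ (insert b {a} : Finset ι)
  · rw [if_neg (not_not.2 hc), mul_zero, mul_zero]
    refine Finset.sum_eq_zero fun d _ => ?_
    have : c = b ∨ c = a := by simpa using hc
    rcases this with rfl | rfl <;> simp [hQ]
  rw [if_pos hc]
  simp only [Finset.mul_sum]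
  refine Finset.sum_congr rfl fun d _ => ?_
  have hc' : c ≠ b ∧ c ≠ a := by simpa using hc
  by_cases hd : d ∈ (insert c (insert b {a}) : Finset ι)
  · have : d = c ∨ d = b ∨ d = a := by simpa using hd
    rw [if_neg (not_not.2 hd)]
    rcases this with rfl | rfl | rfl <;> simp [hQ]
  have hd' : d ≠ c ∧ d ≠ b ∧ d ≠ a := by simpa using hd
  rw [if_pos hd]
  simp only [hQ]
  rw [if_pos ⟨Ne.symm hab, hc'.2.symm, hd'.2.2.symm, hc'.1.symm, hd'.2.1.symm, hd'.1.symm⟩]
  ring

lemma convexOn_d2 (hu : Bdd u) {ε : ℝ} (hε : 0 < ε) {U : Set (ι → ℝ)} (hU : Reg u ε U)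
    (h w z : ι → ℝ) {δ : ℝ} (hmem : ∀ t ∈ Icc (-δ) δ, h + t • z ∈ U) :
    ConvexOn ℝ (Icc (-δ) δ) (fun t => d2 u ε w (h + t • z)) := by
  refine convexOn_of_hasDerivWithinAt2_nonneg (convex_Icc _ _)
    (f' := fun t => d3 u ε w z (h + t • z)) (f'' := fun t => d4 u ε w z (h + t • z)) ?_ ?_ ?_ ?_
  · refine (continuous_finsetSum _ fun a _ => continuous_const.mul
      (continuous_finsetSum _ fun b _ => continuous_const.mul ?_)).continuousOn
    exact (continuous_G u hu hε _).comp (continuous_const.add (continuous_id.smul continuous_const))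
  · intro t ht
    refine (hasDerivAt_d2 u hu hε hU h w z t ?_).hasDerivWithinAt
    exact (isOpen_interior.eventually_mem ht).mono fun s hs => hmem s (interior_subset hs)
  · intro t ht
    refine (hasDerivAt_d3 u hu hε hU h w z t ?_).hasDerivWithinAt
    exact (isOpen_interior.eventually_mem ht).mono fun s hs => hmem s (interior_subset hs)
  · intro t ht
    exact d4_nonneg u hε hU w z _ (hmem t (interior_subset ht))

end Vale.Agent.P227.Kink
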