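import Mathlib
import Vale.Agent.P227.Lp3.Kink.Smooth

/-!
# Second differences of the volume are convex where every facet is active (P227)
-/

open Finset MeasureTheory Filter Set Real
open scoped Topology

namespace Vale.Agent.P227.Kink

variable {ι : Type*} [Fintype ι] [DecidableEq ι] (u : ι → Fin 3 → ℝ)

/-- The volume of the polytope `{x | u k · x < h k}`. -/
noncomputable def V (h : ι → ℝ) : ℝ := volume.real {x : Fin 3 → ℝ | ∀ k, dot (u k) x < h k}

lemma tendsto_G_empty (hu : Bdd u) (h : ι → ℝ) :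
    Tendsto (fun ε => G u ε ∅ h) (𝓝[>] (0:ℝ)) (𝓝 (V u h)) := by
  obtain ⟨C, hC⟩ := hu
  set S := {x : Fin 3 → ℝ | ∀ k, dot (u k) x < h k} with hS
  have hmeas : MeasurableSet S := by
    simp only [hS, Set.setOf_forall]
    exact MeasurableSet.iInter fun k =>
      (isOpen_lt (continuous_dot_right _) continuous_const).measurableSet
  have hV : V u h = ∫ x, S.indicator (fun _ => (1:ℝ)) x := by
    rw [integral_indicator_const _ hmeas, smul_eq_mul, mul_one]; rfl
  rw [hV]
  refine tendsto_integral_filter_of_dominated_convergence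
    ((Metric.closedBall (0:Fin 3 → ℝ) (C * ‖h‖)).indicator fun _ => 1) ?_ ?_
    ((integrable_indicator_iff measurableSet_closedBall).2
      (integrableOn_const (hs := measure_closedBall_lt_top.ne))) ?_
  · filter_upwards [self_mem_nhdsWithin] with ε hε
    exact (integrable_dens u ⟨C, hC⟩ hε ∅ h).aestronglyMeasurable
  · filter_upwards [self_mem_nhdsWithin] with ε hε
    refine Eventually.of_forall fun x => ?_
    by_cases hx : x ∈ Metric.closedBall (0:Fin 3 → ℝ) (C * ‖h‖)
    · rw [indicator_of_mem hx, Real.norm_eq_abs, abs_of_nonneg (dens_nonneg u hε _ _ _)]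
      exact Finset.prod_le_one (fun k _ => by simp [step, smoothTransition.nonneg])
        fun k _ => by simp [step, smoothTransition.le_one]
    · rw [indicator_of_notMem hx]
      refine le_of_eq (norm_eq_zero.2 ?_)
      by_contra hne
      exact hx (mem_closedBall_zero_iff.2 (hC x _ (norm_nonneg h) fun k =>
        ((dens_near u hε hne).1 k).trans ((le_abs_self _).trans (norm_le_pi_norm h k))))
  · refine Eventually.of_forall fun x => ?_
    simp only [dens, Finset.notMem_empty, if_false]
    by_cases hx : x ∈ S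
    · rw [indicator_of_mem hx]
      refine tendsto_const_nhds.congr' ?_
      have : ∀ k, ∀ᶠ ε in 𝓝[>] (0:ℝ), step ε (h k - dot (u k) x) = 1 := fun k => by
        filter_upwards [Ioo_mem_nhdsGT (sub_pos.2 (hx k))] with ε hε
        exact smoothTransition.one_of_one_le (by rw [le_div_iff₀ hε.1]; linarith [hε.2])
      filter_upwards [eventually_all.2 this] with ε hε
      exact (Finset.prod_eq_one fun k _ => hε k).symm
    · rw [indicator_of_notMem hx]
      simp only [hS, Set.mem_setOf_eq, not_forall, not_lt] at hx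
      obtain ⟨k, hk⟩ := hx
      refine tendsto_const_nhds.congr' ?_
      filter_upwards [self_mem_nhdsWithin] with ε hε
      exact (Finset.prod_eq_zero (Finset.mem_univ k) (smoothTransition.zero_of_nonpos
        (div_nonpos_of_nonpos_of_nonneg (by linarith) (le_of_lt hε)))).symm

/-- Every plane which touches the body carries at least two points of it. -/
def Active (h : ι → ℝ) : Prop := ∀ k,
  (∃ x : Fin 3 → ℝ, (∀ j, dot (u j) x ≤ h j) ∧ dot (u k) x = h k) → ∃ y y' : Fin 3 → ℝ, y ≠ y' ∧
  ((∀ j, dot (u j) y ≤ h j) ∧ dot (u k) y = h k) ∧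
  (∀ j, dot (u j) y' ≤ h j) ∧ dot (u k) y' = h k

omit [DecidableEq ι] in
lemma eventually_not_near (hu : Bdd u) {K : Set (ι → ℝ)} (hK : IsCompact K) {S : Finset ι}
    (h0 : ∀ h ∈ K, ∀ x, ¬Near u 0 S h x) :
    ∀ᶠ ε in 𝓝[>] (0:ℝ), ∀ h ∈ K, ∀ x, ¬Near u ε S h x := by
  obtain ⟨C, hC⟩ := hu
  obtain ⟨R, hR⟩ := hK.exists_bound_of_continuousOn continuous_norm.continuousOn
  set A : Set ((ι → ℝ) × (Fin 3 → ℝ)) :=
    (K ×ˢ Metric.closedBall (0:Fin 3 → ℝ) (|C| * R)) ∩ {p | ∀ k, dot (u k) p.2 ≤ p.1 k} with hA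
  have hc : ∀ k, Continuous fun p : (ι → ℝ) × (Fin 3 → ℝ) => p.1 k - dot (u k) p.2 := fun k =>
    ((continuous_apply k).comp continuous_fst).sub ((continuous_dot_right _).comp continuous_snd)
  have hAc : IsCompact A := by
    refine (hK.prod (isCompact_closedBall _ _)).inter_right ?_
    simp only [Set.setOf_forall]
    exact isClosed_iInter fun k => isClosed_le ((continuous_dot_right _).comp continuous_snd)
      ((continuous_apply k).comp continuous_fst)
  have hmem : ∀ ε, ∀ h ∈ K, ∀ x, Near u ε S h x → (h, x) ∈ A := by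
    intro ε h hh x hx
    have hr : ‖h‖ ≤ R := by simpa using hR h hh
    refine ⟨⟨hh, mem_closedBall_zero_iff.2 ?_⟩, hx.1⟩
    have h1 := hC x _ (norm_nonneg h) fun k =>
      (hx.1 k).trans ((le_abs_self _).trans (norm_le_pi_norm h k))
    exact h1.trans ((mul_le_mul_of_nonneg_right (le_abs_self C) (norm_nonneg h)).trans
      (mul_le_mul_of_nonneg_left hr (abs_nonneg C)))
  have hpos : ∀ p ∈ A, 0 < ∑ a ∈ S, (p.1 a - dot (u a) p.2) := by
    intro p hp
    by_contra! hle
    refine h0 p.1 hp.1.1 p.2 ⟨hp.2, fun a ha => ?_⟩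
    have := Finset.single_le_sum (fun b _ => sub_nonneg.2 (hp.2 b)) ha
    linarith
  obtain ⟨m, hm, hmA⟩ : ∃ m, 0 < m ∧ ∀ p ∈ A, m ≤ ∑ a ∈ S, (p.1 a - dot (u a) p.2) :=
    hAc.exists_forall_le' (continuous_finsetSum S fun k _ => hc k).continuousOn hpos
  filter_upwards [Ioo_mem_nhdsGT (div_pos hm (show (0:ℝ) < S.card + 1 by positivity))] with ε hε
  intro h hh x hx
  have h1 := hmA _ (hmem ε h hh x hx)
  have h2 : ∑ a ∈ S, (h a - dot (u a) x) ≤ S.card * ε := by
    have := Finset.sum_le_card_nsmul S (fun a => h a - dot (u a) x) ε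
      fun a ha => by linarith [hx.2 a ha]
    simpa [nsmul_eq_mul] using this
  have h3 : ε * (S.card + 1) < m := (lt_div_iff₀ (by positivity)).1 hε.2
  nlinarith [hε.1]

lemma det_mul (x y z p q r : Fin 3 → ℝ) : det3 x y z * det3 p q r =
    det3 ![dot x p, dot x q, dot x r] ![dot y p, dot y q, dot y r] ![dot z p, dot z q, dot z r] := by
  simp only [det3, dot]; simp; ring

lemma det3_ne_zero {a b c : ι} (hab : a ≠ b) (hac : a ≠ c) (hbc : b ≠ c)
    (hS : Solv u (insert c (insert b {a}))) : det3 (u a) (u b) (u c) ≠ 0 := by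
  obtain ⟨p, hp⟩ := hS (Pi.single a 1)
  obtain ⟨q, hq⟩ := hS (Pi.single b 1)
  obtain ⟨r, hr⟩ := hS (Pi.single c 1)
  intro h0
  have := det_mul (u a) (u b) (u c) p q r
  rw [h0, hp a (by simp), hp b (by simp), hp c (by simp), hq a (by simp), hq b (by simp),
    hq c (by simp), hr a (by simp), hr b (by simp), hr c (by simp)] at this
  simp [det3, hab, hab.symm, hac, hac.symm, hbc, hbc.symm] at this

omit [Fintype ι] [DecidableEq ι] in
lemma eq_of_three {a b c : ι} (h : det3 (u a) (u b) (u c) ≠ 0) {x y : Fin 3 → ℝ}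
    (ha : dot (u a) x = dot (u a) y) (hb : dot (u b) x = dot (u b) y)
    (hc : dot (u c) x = dot (u c) y) : x = y := by
  simp only [dot] at ha hb hc
  simp only [det3] at h
  refine funext fun i => sub_eq_zero.1 ((mul_eq_zero.1 ?_).resolve_left h)
  fin_cases i <;> simp <;> grobner

omit [Fintype ι] [DecidableEq ι] in
lemma no_one_sign {h : ι → ℝ} {x : Fin 3 → ℝ} {k i j l : ι} {ck ci cj cl : ℝ}
    (hi : 0 < ci) (hj : 0 < cj) (hl : 0 < cl) (hdet : det3 (u i) (u j) (u l) ≠ 0)
    (hrel : ∀ y, ck * dot (u k) y + ci * dot (u i) y + cj * dot (u j) y + cl * dot (u l) y = 0)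
    (hxb : ∀ m, dot (u m) x ≤ h m) (ek : dot (u k) x = h k) (ei : dot (u i) x = h i) (ej : dot (u j) x = h j)
    (el : dot (u l) x = h l) : ¬Active u h := by
  intro hact
  obtain ⟨y, y', hne, ⟨hy, hyk⟩, hy', hyk'⟩ := hact k ⟨x, hxb, ek⟩
  have key : ∀ y : Fin 3 → ℝ, (∀ m, dot (u m) y ≤ h m) → dot (u k) y = h k → y = x := by
    intro y hy hyk
    have e0 : ci * (h i - dot (u i) y) + cj * (h j - dot (u j) y) + cl * (h l - dot (u l) y) = 0 := by
      rw [← ei, ← ej, ← el]
      linear_combination hrel x - hrel y + ck * hyk - ck * ek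
    have n1 := mul_nonneg hi.le (sub_nonneg.2 (hy i))
    have n2 := mul_nonneg hj.le (sub_nonneg.2 (hy j))
    have n3 := mul_nonneg hl.le (sub_nonneg.2 (hy l))
    have z1 : h i - dot (u i) y = 0 := (mul_eq_zero.1 (by linarith)).resolve_left hi.ne'
    have z2 : h j - dot (u j) y = 0 := (mul_eq_zero.1 (by linarith)).resolve_left hj.ne'
    have z3 : h l - dot (u l) y = 0 := (mul_eq_zero.1 (by linarith)).resolve_left hl.ne'
    exact eq_of_three u hdet (by linarith) (by linarith) (by linarith)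
  exact hne ((key y hy hyk).trans (key y' hy' hyk').symm)

/-- Exact regularity on a compact set gives regularity of every small smoothing. -/
lemma eventually_reg (hu : Bdd u) {K : Set (ι → ℝ)} (hK : IsCompact K)
    (one : ∀ a : ι, Solv u {a})
    (two : ∀ h ∈ K, ∀ x, ∀ a b : ι, a ≠ b → Near u 0 (insert b {a}) h x → Solv u (insert b {a}))
    (three : ∀ h ∈ K, ∀ x, ∀ a b c : ι, a ≠ b → a ≠ c → b ≠ c →
      Near u 0 (insert c (insert b {a})) h x → Solv u (insert c (insert b {a})))
    (act : ∀ h ∈ K, Active u h) : ∀ᶠ ε in 𝓝[>] (0:ℝ), Reg u ε K := by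
  have four : ∀ h ∈ K, ∀ x, ∀ a b c d : ι, a ≠ b → a ≠ c → a ≠ d → b ≠ c → b ≠ d → c ≠ d →
      Near u 0 (insert d (insert c (insert b {a}))) h x → 0 < depProd u a b c d := by
    intro h hh x a b c d h1 h2 h3 h4 h5 h6 hx
    have eq : ∀ e ∈ insert d (insert c (insert b ({a} : Finset ι))), dot (u e) x = h e :=
      fun e he => le_antisymm (hx.1 e) (by simpa using hx.2 e he)
    have sub : ∀ i j k, i ∈ insert d (insert c (insert b ({a} : Finset ι))) →
        j ∈ insert d (insert c (insert b ({a} : Finset ι))) →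
        k ∈ insert d (insert c (insert b ({a} : Finset ι))) → i ≠ j → i ≠ k → j ≠ k →
        det3 (u i) (u j) (u k) ≠ 0 := fun i j k hi hj hk hij hik hjk =>
      det3_ne_zero u hij hik hjk (three h hh x i j k hij hik hjk
        ⟨hx.1, fun e he => hx.2 e (by simp at he; rcases he with rfl | rfl | rfl <;> assumption)⟩)
    have dA := sub b c d (by simp) (by simp) (by simp) h4 h5 h6
    have dB := sub a c d (by simp) (by simp) (by simp) h2 h3 h6
    have dC := sub a b d (by simp) (by simp) (by simp) h1 h3 h5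
    have dD := sub a b c (by simp) (by simp) (by simp) h1 h2 h4
    have ea := eq a (by simp)
    have eb := eq b (by simp)
    have ec := eq c (by simp)
    have ed := eq d (by simp)
    have hrel : ∀ y, det3 (u b) (u c) (u d) * dot (u a) y - det3 (u a) (u c) (u d) * dot (u b) y
        + det3 (u a) (u b) (u d) * dot (u c) y - det3 (u a) (u b) (u c) * dot (u d) y = 0 := by
      intro y; simp only [det3, dot]; ring
    by_contra! hle
    have hact := act h hh
    rw [depProd] at hle
    generalize det3 (u b) (u c) (u d) = A at *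
    generalize det3 (u a) (u c) (u d) = B at *
    generalize det3 (u a) (u b) (u d) = C at *
    generalize det3 (u a) (u b) (u c) = D at *
    have dA' := sub b c d (by simp) (by simp) (by simp) h4 h5 h6
    have dB' := sub a c d (by simp) (by simp) (by simp) h2 h3 h6
    have dC' := sub a b d (by simp) (by simp) (by simp) h1 h3 h5
    have dD' := sub a b c (by simp) (by simp) (by simp) h1 h2 h4
    have hlt : A * B * C * D < 0 := lt_of_le_of_ne hle (by positivity)
    rcases lt_or_gt_of_ne dA with sA | sA <;> rcases lt_or_gt_of_ne dB with sB | sB <;>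
      rcases lt_or_gt_of_ne dC with sC | sC <;> rcases lt_or_gt_of_ne dD with sD | sD <;>
      first
      | exact absurd hlt (not_lt.2 (le_of_lt (by
          first
          | exact mul_pos (mul_pos_iff.2 (by
              first
              | exact Or.inl ⟨mul_pos_iff.2 (by tauto), sC⟩
              | exact Or.inr ⟨mul_neg_of_neg_of_pos sA sB, sC⟩
              | exact Or.inr ⟨mul_neg_of_pos_of_neg sA sB, sC⟩)) sD
          | exact mul_pos_of_neg_of_neg (mul_neg_iff.2 (by
              first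
              | exact Or.inl ⟨mul_pos_iff.2 (by tauto), sC⟩
              | exact Or.inr ⟨mul_neg_of_neg_of_pos sA sB, sC⟩
              | exact Or.inr ⟨mul_neg_of_pos_of_neg sA sB, sC⟩)) sD)))
      | exact no_one_sign u (ck := A) (ci := -B) (cj := C) (cl := -D) (by linarith) (by linarith)
          (by linarith) dA' (fun y => by linear_combination hrel y) hx.1 ea eb ec ed hact
      | exact no_one_sign u (ck := -A) (ci := B) (cj := -C) (cl := D) (by linarith) (by linarith)
          (by linarith) dA' (fun y => by linear_combination -hrel y) hx.1 ea eb ec ed hact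
      | exact no_one_sign u (ck := -B) (ci := A) (cj := C) (cl := -D) (by linarith) (by linarith)
          (by linarith) dB' (fun y => by linear_combination hrel y) hx.1 eb ea ec ed hact
      | exact no_one_sign u (ck := B) (ci := -A) (cj := -C) (cl := D) (by linarith) (by linarith)
          (by linarith) dB' (fun y => by linear_combination -hrel y) hx.1 eb ea ec ed hact
      | exact no_one_sign u (ck := C) (ci := A) (cj := -B) (cl := -D) (by linarith) (by linarith)
          (by linarith) dC' (fun y => by linear_combination hrel y) hx.1 ec ea eb ed hact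
      | exact no_one_sign u (ck := -C) (ci := -A) (cj := B) (cl := D) (by linarith) (by linarith)
          (by linarith) dC' (fun y => by linear_combination -hrel y) hx.1 ec ea eb ed hact
      | exact no_one_sign u (ck := -D) (ci := A) (cj := -B) (cl := C) (by linarith) (by linarith)
          (by linarith) dD' (fun y => by linear_combination hrel y) hx.1 ed ea eb ec hact
      | exact no_one_sign u (ck := D) (ci := -A) (cj := B) (cl := -C) (by linarith) (by linarith)
          (by linarith) dD' (fun y => by linear_combination -hrel y) hx.1 ed ea eb ec hact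
  have h2 : ∀ᶠ ε in 𝓝[>] (0:ℝ), ∀ a b : ι, a ≠ b → ∀ h ∈ K, ∀ x,
      Near u ε (insert b {a}) h x → Solv u (insert b {a}) := by
    refine eventually_all.2 fun a => eventually_all.2 fun b => ?_
    by_cases hs : a = b ∨ Solv u (insert b {a})
    · exact Eventually.of_forall fun ε hab _ _ _ _ => hs.resolve_left hab
    · push Not at hs
      exact (eventually_not_near u hu hK fun h hh x hx => hs.2 (two h hh x a b hs.1 hx)).mono
        fun ε hε _ h hh x hx => absurd hx (hε h hh x)
  have h3 : ∀ᶠ ε in 𝓝[>] (0:ℝ), ∀ a b c : ι, a ≠ b ∧ a ≠ c ∧ b ≠ c → ∀ h ∈ K, ∀ x,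
      Near u ε (insert c (insert b {a})) h x → Solv u (insert c (insert b {a})) := by
    refine eventually_all.2 fun a => eventually_all.2 fun b => eventually_all.2 fun c => ?_
    by_cases hs : ¬(a ≠ b ∧ a ≠ c ∧ b ≠ c) ∨ Solv u (insert c (insert b {a}))
    · exact Eventually.of_forall fun ε hd _ _ _ _ => hs.resolve_left (not_not.2 hd)
    · rw [not_or, not_not] at hs
      obtain ⟨⟨e1, e2, e3⟩, hn⟩ := hs
      exact (eventually_not_near u hu hK fun h hh x hx => hn (three h hh x a b c e1 e2 e3 hx)).mono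
        fun ε hε _ h hh x hx => absurd hx (hε h hh x)
  have h4 : ∀ᶠ ε in 𝓝[>] (0:ℝ), ∀ a b c d : ι,
      (a ≠ b ∧ a ≠ c ∧ a ≠ d ∧ b ≠ c ∧ b ≠ d ∧ c ≠ d) → ∀ h ∈ K, ∀ x,
      Near u ε (insert d (insert c (insert b {a}))) h x → 0 < depProd u a b c d := by
    refine eventually_all.2 fun a => eventually_all.2 fun b => eventually_all.2 fun c =>
      eventually_all.2 fun d => ?_
    by_cases hs : ¬(a ≠ b ∧ a ≠ c ∧ a ≠ d ∧ b ≠ c ∧ b ≠ d ∧ c ≠ d) ∨ 0 < depProd u a b c d
    · exact Eventually.of_forall fun ε hd _ _ _ _ => hs.resolve_left (not_not.2 hd)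
    · rw [not_or, not_not] at hs
      obtain ⟨⟨e1, e2, e3, e4, e5, e6⟩, hn⟩ := hs
      exact (eventually_not_near u hu hK fun h hh x hx =>
        hn (four h hh x a b c d e1 e2 e3 e4 e5 e6 hx)).mono fun ε hε _ h hh x hx =>
          absurd hx (hε h hh x)
  filter_upwards [h2, h3, h4] with ε e2 e3 e4
  exact ⟨one, fun h hh x a b hab => e2 a b hab h hh x,
    fun h hh x a b c p q r => e3 a b c ⟨p, q, r⟩ h hh x,
    fun h hh x a b c d p q r s t v => e4 a b c d ⟨p, q, r, s, t, v⟩ h hh x⟩

/-- **Kink convexity.** On a segment whose `δ`-tube consists of right-hand sides with all facets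
active, the second difference of the volume in any direction `z` is convex. -/
theorem convexOn_secondDiff (hu : Bdd u) (one : ∀ a : ι, Solv u {a}) (h w z : ι → ℝ) {δ : ℝ}
    (hδ : 0 < δ)
    (two : ∀ s ∈ Icc (0:ℝ) 1, ∀ t ∈ Icc (-δ) δ, ∀ x, ∀ a b : ι, a ≠ b →
      Near u 0 (insert b {a}) (h + s • w + t • z) x → Solv u (insert b {a}))
    (three : ∀ s ∈ Icc (0:ℝ) 1, ∀ t ∈ Icc (-δ) δ, ∀ x, ∀ a b c : ι, a ≠ b → a ≠ c → b ≠ c →
      Near u 0 (insert c (insert b {a})) (h + s • w + t • z) x →
        Solv u (insert c (insert b {a})))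
    (act : ∀ s ∈ Icc (0:ℝ) 1, ∀ t ∈ Icc (-δ) δ, Active u (h + s • w + t • z)) :
    ConvexOn ℝ (Icc (0:ℝ) 1) (fun s => V u (h + s • w + δ • z) + V u (h + s • w - δ • z)
      - 2 * V u (h + s • w)) := by
  set K := (fun p : ℝ × ℝ => h + p.1 • w + p.2 • z) '' (Icc (0:ℝ) 1 ×ˢ Icc (-δ) δ) with hK
  have hKc : IsCompact K := (isCompact_Icc.prod isCompact_Icc).image (by fun_prop)
  have hreg := eventually_reg u hu hKc one
    (by rintro _ ⟨⟨s, t⟩, ⟨hs, ht⟩, rfl⟩; exact two s hs t ht)
    (by rintro _ ⟨⟨s, t⟩, ⟨hs, ht⟩, rfl⟩; exact three s hs t ht)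
    (by rintro _ ⟨⟨s, t⟩, ⟨hs, ht⟩, rfl⟩; exact act s hs t ht)
  set F : ℝ → ℝ → ℝ := fun ε s => G u ε ∅ (h + s • w + δ • z) + G u ε ∅ (h + s • w - δ • z)
      - 2 * G u ε ∅ (h + s • w) with hF
  have hconv : ∀ᶠ ε in 𝓝[>] (0:ℝ), ConvexOn ℝ (Icc (0:ℝ) 1) (F ε) := by
    filter_upwards [hreg, self_mem_nhdsWithin] with ε hR hε
    set F1 : ℝ → ℝ := fun s => d1 u ε w (h + s • w + δ • z) + d1 u ε w (h + s • w - δ • z)
      - 2 * d1 u ε w (h + s • w)
    have e1 : ∀ s : ℝ, h + s • w + δ • z = (h + δ • z) + s • w := fun s => by module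
    have e2 : ∀ s : ℝ, h + s • w - δ • z = (h - δ • z) + s • w := fun s => by module
    have hF1 : ∀ s, HasDerivAt (F ε) (F1 s) s := fun s => by
      simp only [hF, F1, e1, e2]
      exact ((hasDerivAt_d0 u hu hε _ w s).fun_add (hasDerivAt_d0 u hu hε _ w s)).fun_sub
        ((hasDerivAt_d0 u hu hε h w s).const_mul 2)
    have hF2 : ∀ s, HasDerivAt F1 (d2 u ε w (h + s • w + δ • z) + d2 u ε w (h + s • w - δ • z)
        - 2 * d2 u ε w (h + s • w)) s := fun s => by
      simp only [F1, e1, e2]
      exact ((hasDerivAt_d1 u hu hε hR _ w s).fun_add (hasDerivAt_d1 u hu hε hR _ w s)).fun_sub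
        ((hasDerivAt_d1 u hu hε hR h w s).const_mul 2)
    refine convexOn_of_hasDerivWithinAt2_nonneg (convex_Icc _ _)
      (fun s _ => (hF1 s).continuousAt.continuousWithinAt)
      (fun s _ => (hF1 s).hasDerivWithinAt) (fun s _ => (hF2 s).hasDerivWithinAt) fun s hs => ?_
    have hs' : s ∈ Icc (0:ℝ) 1 := interior_subset hs
    have hc := convexOn_d2 u hu hε hR (h + s • w) w z (δ := δ)
      fun t ht => ⟨(s, t), ⟨hs', ht⟩, rfl⟩
    have h2 := hc.2 (show δ ∈ Icc (-δ) δ by simp [hδ.le]) (show -δ ∈ Icc (-δ) δ by simp [hδ.le])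
      (show (0:ℝ) ≤ 1/2 by norm_num) (show (0:ℝ) ≤ 1/2 by norm_num) (by norm_num)
    simp only [smul_eq_mul] at h2
    rw [show (1/2 : ℝ) * δ + 1/2 * -δ = 0 by ring, zero_smul, add_zero, neg_smul,
      ← sub_eq_add_neg] at h2
    linarith
  have hlim : ∀ s, Tendsto (fun ε => F ε s) (𝓝[>] (0:ℝ)) (𝓝 (V u (h + s • w + δ • z)
      + V u (h + s • w - δ • z) - 2 * V u (h + s • w))) := fun s =>
    ((tendsto_G_empty u hu _).add (tendsto_G_empty u hu _)).sub
      ((tendsto_G_empty u hu _).const_mul 2)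
  refine ⟨convex_Icc _ _, fun a ha b hb p q hp hq hpq => ?_⟩
  simp only [smul_eq_mul]
  exact le_of_tendsto_of_tendsto (hlim _) (((hlim a).const_mul p).add ((hlim b).const_mul q))
    (hconv.mono fun ε hε => by simpa [smul_eq_mul] using hε.2 ha hb hp hq hpq)

end Vale.Agent.P227.Kink
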